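import Mathlib

/-!
Gaussian primes in strips: uniform prime-free blocks.
-/

namespace Vale.Agent.P015

open Finset ArithmeticFunction

/-- Primes congruent to one mod four in (P, 2P]. -/
def blk (P : ℕ) : Finset ℕ := (Finset.Ioc P (2 * P)).filter (fun p => p.Prime ∧ p % 4 = 1)

lemma geom_id (j : ℕ) : ∑ i ∈ range j, ((i : ℝ) + 1) / 2 ^ i = 4 - (2 * (j : ℝ) + 4) / 2 ^ j := by
  induction j with
  | zero => simp
  | succ j ih =>
    rw [sum_range_succ, ih, pow_succ]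
    push_cast
    field_simp
    ring

lemma exists_dense_block (J : ℕ) : ∃ B, 5 ≤ B ∧ J ≤ (blk B).card := by
  by_contra! h
  set f : ℕ → ℝ := fun n =>
    (if n.Prime then vonMangoldt.residueClass (1 : ZMod 4) n else 0) / (n : ℝ) with hf
  have hcast : ∀ n : ℕ, ((n : ZMod 4) = 1) ↔ n % 4 = 1 := by
    intro n
    rw [show (1 : ZMod 4) = ((1 : ℕ) : ZMod 4) by simp, ZMod.natCast_eq_natCast_iff']
  have hnn : ∀ n, 0 ≤ f n := by
    intro n
    simp only [hf]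
    refine div_nonneg ?_ n.cast_nonneg
    split_ifs
    · exact vonMangoldt.residueClass_nonneg _ n
    · exact le_rfl
  have hb : ∀ (i n : ℕ), n ∈ Finset.Ioc (2 ^ i) (2 * 2 ^ i) →
      f n ≤ if n.Prime ∧ n % 4 = 1 then ((i : ℝ) + 1) / 2 ^ i else 0 := by
    intro i n hn
    rw [Finset.mem_Ioc] at hn
    by_cases hp : n.Prime
    · by_cases hm : n % 4 = 1
      · have hn0 : (0 : ℝ) < n := by exact_mod_cast hp.pos
        have h2 : vonMangoldt.residueClass (1 : ZMod 4) n ≤ (i : ℝ) + 1 := by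
          refine (vonMangoldt.residueClass_le _ n).trans ?_
          refine vonMangoldt_le_log.trans ?_
          calc Real.log n ≤ Real.log ((2 : ℝ) ^ (i + 1)) := by
                  apply Real.log_le_log hn0
                  rw [pow_succ']
                  exact_mod_cast hn.2
            _ = ((i : ℝ) + 1) * Real.log 2 := by rw [Real.log_pow]; push_cast; ring
            _ ≤ ((i : ℝ) + 1) * 1 := by
                  gcongr
                  linarith [Real.log_two_lt_d9]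
            _ = _ := mul_one _
        simp only [hf, if_pos hp, if_pos (And.intro hp hm)]
        apply div_le_div₀ (by positivity) h2 (by positivity)
        exact_mod_cast hn.1.le
      · have hz : vonMangoldt.residueClass (1 : ZMod 4) n = 0 :=
          Set.indicator_of_notMem (by simp [hcast, hm]) _
        simp [hf, hz, hm]
    · simp [hf, hp]
  have hblock : ∀ i : ℕ, ∑ n ∈ Finset.Ioc (2 ^ i) (2 * 2 ^ i), f n
      ≤ ((J : ℝ) + 4) * (((i : ℝ) + 1) / 2 ^ i) := by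
    intro i
    refine (sum_le_sum (hb i)).trans ?_
    rw [← sum_filter, sum_const, nsmul_eq_mul]
    have hc : (blk (2 ^ i)).card ≤ J + 4 := by
      by_cases h5 : 5 ≤ 2 ^ i
      · exact (h _ h5).le.trans (by omega)
      · refine (card_filter_le _ _).trans ?_
        simp only [Nat.card_Ioc]
        omega
    apply mul_le_mul_of_nonneg_right _ (by positivity)
    exact_mod_cast hc
  have hpart : ∀ j, ∑ n ∈ range (2 ^ j + 1), f n
      ≤ ((J : ℝ) + 4) * ∑ i ∈ range j, ((i : ℝ) + 1) / 2 ^ i := by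
    intro j
    induction j with
    | zero => simp [sum_range_succ, hf]
    | succ j ih =>
      have hsplit : range (2 ^ (j + 1) + 1)
          = range (2 ^ j + 1) ∪ Finset.Ioc (2 ^ j) (2 * 2 ^ j) := by
        ext n
        simp only [mem_range, mem_union, Finset.mem_Ioc, pow_succ]
        omega
      have hd : Disjoint (range (2 ^ j + 1)) (Finset.Ioc (2 ^ j) (2 * 2 ^ j)) := by
        rw [Finset.disjoint_left]
        intro n hn hn'
        simp only [mem_range, Finset.mem_Ioc] at hn hn'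
        omega
      rw [hsplit, sum_union hd, sum_range_succ (fun i : ℕ => ((i : ℝ) + 1) / 2 ^ i) j, mul_add]
      exact add_le_add ih (hblock j)
  refine vonMangoldt.not_summable_residueClass_prime_div (a := (1 : ZMod 4)) isUnit_one ?_
  refine summable_of_sum_range_le (c := ((J : ℝ) + 4) * 4) hnn fun n => ?_
  refine le_trans (sum_le_sum_of_subset_of_nonneg ?_ (fun i _ _ => hnn i)) ((hpart n).trans ?_)
  · exact range_subset_range.2 (Nat.lt_two_pow_self.le.trans (Nat.le_succ _))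
  · rw [geom_id]
    have : (0 : ℝ) ≤ (2 * (n : ℝ) + 4) / 2 ^ n := by positivity
    nlinarith [(Nat.cast_nonneg J : (0 : ℝ) ≤ J)]

lemma norm_le_sq_of_dvd {z : GaussianInt} (hz : Prime z) {p : ℕ} (hp : p.Prime)
    (hd : (p : ℤ) ∣ z.norm) : z.norm ≤ (p : ℤ) ^ 2 := by
  set N := z.norm.natAbs with hN
  have hNz : (N : ℤ) = z.norm := GaussianInt.abs_natCast_norm z
  have hN0 : N ≠ 0 := by
    rw [hN, Int.natAbs_ne_zero, Ne, GaussianInt.norm_eq_zero]
    exact hz.ne_zero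
  have hzN : z ∣ ((N : ℕ) : GaussianInt) := by
    refine ⟨star z, ?_⟩
    rw [← Zsqrtd.norm_eq_mul_conj, ← hNz]
    simp
  obtain ⟨q, hq, hzq⟩ : ∃ q ∈ N.primeFactorsList, z ∣ (q : GaussianInt) := by
    rw [← Nat.prod_primeFactorsList hN0, Nat.cast_list_prod] at hzN
    obtain ⟨a, ha, hza⟩ := hz.dvd_prod_iff.1 hzN
    obtain ⟨q, hq, rfl⟩ := List.mem_map.1 ha
    exact ⟨q, hq, hza⟩
  have hqp : q.Prime := Nat.prime_of_mem_primeFactorsList hq
  have hNq : N ∣ q ^ 2 := by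
    obtain ⟨r, hr⟩ := hzq
    have := congrArg Zsqrtd.norm hr
    rw [Zsqrtd.norm_natCast, Zsqrtd.norm_mul] at this
    have h2 : z.norm ∣ (q : ℤ) * q := ⟨r.norm, this⟩
    rw [← hNz] at h2
    have h3 : N ∣ q * q := by exact_mod_cast h2
    rwa [sq]
  have hpN : p ∣ N := by
    rw [← hNz] at hd
    exact_mod_cast hd
  have hpq : p = q := (Nat.prime_dvd_prime_iff_eq hp hqp).1 (hp.dvd_of_dvd_pow (hpN.trans hNq))
  have : N ≤ p ^ 2 := hpq ▸ Nat.le_of_dvd (pow_pos hqp.pos 2) hNq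
  rw [← hNz]
  exact_mod_cast this

lemma exists_root {p : ℕ} [Fact p.Prime] (hp4 : p % 4 = 1) (a b A C : ℤ)
    (hN : ¬ (p : ℤ) ∣ a ^ 2 + b ^ 2) :
    ∃ t : ℕ, ∀ t' : ℕ, t' ≡ t [MOD p] →
      (p : ℤ) ∣ (A + t' * b) ^ 2 + (C + t' * a) ^ 2 := by
  obtain ⟨s, hs⟩ := ZMod.exists_sq_eq_neg_one_iff.2 (show p % 4 ≠ 3 by omega)
  have hc : (b : ZMod p) + s * a ≠ 0 := by
    intro h0
    apply hN
    rw [← ZMod.intCast_zmod_eq_zero_iff_dvd]
    push_cast
    linear_combination ((b : ZMod p) - s * a) * h0 - (a : ZMod p) ^ 2 * hs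
  refine ⟨(-((A : ZMod p) + s * C) / ((b : ZMod p) + s * a)).val, fun t' ht => ?_⟩
  have ht' : (t' : ZMod p) * ((b : ZMod p) + s * a) = -((A : ZMod p) + s * C) := by
    rw [(ZMod.natCast_eq_natCast_iff _ _ _).2 ht, ZMod.natCast_zmod_val, div_mul_cancel₀ _ hc]
  rw [← ZMod.intCast_zmod_eq_zero_iff_dvd]
  push_cast
  linear_combination
    ((A : ZMod p) + (t' : ZMod p) * b - s * ((C : ZMod p) + (t' : ZMod p) * a)) * ht'
      - ((C : ZMod p) + (t' : ZMod p) * a) ^ 2 * hs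

lemma exists_good_primes (K : ℕ) : ∃ B, 5 ≤ B ∧ ∀ a b : ℤ, 0 < b → b ≤ ((2 * B) ^ K : ℕ) →
    |a| ≤ ((2 * B) ^ K : ℕ) + 1 →
    K ≤ ((blk B).filter (fun p : ℕ => ¬ p ∣ (a ^ 2 + b ^ 2).natAbs)).card := by
  obtain ⟨B, hB5, hBJ⟩ := exists_dense_block (5 * K + 2)
  refine ⟨B, hB5, fun a b hb0 hbn ha => ?_⟩
  set n := (2 * B) ^ K with hn
  have hn0 : 0 < n := pow_pos (by omega) K
  set N := (a ^ 2 + b ^ 2).natAbs with hN
  have hN0 : N ≠ 0 := by
    rw [hN, Int.natAbs_ne_zero]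
    positivity
  have hNle : N ≤ 5 * n ^ 2 := by
    have h4 : ((N : ℕ) : ℤ) ≤ 5 * (n : ℤ) ^ 2 := by
      rw [hN, Int.natAbs_of_nonneg (by positivity)]
      nlinarith [sq_abs a, abs_nonneg a, (by exact_mod_cast hn0 : (1 : ℤ) ≤ (n : ℤ))]
    exact_mod_cast h4
  set bad := (blk B).filter (fun p => p ∣ N) with hbaddef
  have h1 : ∏ p ∈ bad, p ∣ N := by
    refine Finset.prod_primes_dvd N (fun p hp => ?_) (fun p hp => (mem_filter.1 hp).2)
    exact (mem_filter.1 (mem_filter.1 hp).1).2.1.prime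
  have h2 : B ^ bad.card ≤ ∏ p ∈ bad, p := by
    refine Finset.pow_card_le_prod _ _ _ fun p hp => ?_
    exact (Finset.mem_Ioc.1 (mem_filter.1 (mem_filter.1 hp).1).1).1.le
  have h3 : B ^ bad.card ≤ B ^ (4 * K + 1) := by
    refine (h2.trans (Nat.le_of_dvd (Nat.pos_of_ne_zero hN0) h1)).trans (hNle.trans ?_)
    calc 5 * n ^ 2 = 5 * (2 * B) ^ (2 * K) := by rw [hn, ← pow_mul, mul_comm K 2]
      _ ≤ B * (B * B) ^ (2 * K) := by gcongr; omega
      _ = B ^ (4 * K + 1) := by rw [← sq, ← pow_mul, ← pow_succ']; ring_nf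
  have h4 := (Nat.pow_le_pow_iff_right (by omega)).1 h3
  have h5 := Finset.card_filter_add_card_filter_not (s := blk B) (fun p => p ∣ N)
  rw [← hbaddef] at h5
  omega

lemma crt_point {ι : Type*} [Fintype ι] [DecidableEq ι] {B : ℕ} (a b : ℤ) (A C : ι → ℤ)
    (hcard : Fintype.card ι ≤ ((blk B).filter (fun p : ℕ => ¬ p ∣ (a ^ 2 + b ^ 2).natAbs)).card) :
    ∃ t : ℕ, t < (2 * B) ^ Fintype.card ι ∧ ∀ k : ι, ∃ p : ℕ, p.Prime ∧ p ≤ 2 * B ∧
      (p : ℤ) ∣ (A k + t * b) ^ 2 + (C k + t * a) ^ 2 := by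
  rw [← Fintype.card_coe] at hcard
  obtain ⟨e⟩ := Function.Embedding.nonempty_of_card_le hcard
  set P : ι → ℕ := fun k => (e k : ℕ) with hP
  have hPm : ∀ k, (B < P k ∧ P k ≤ 2 * B) ∧ ((P k).Prime ∧ P k % 4 = 1) ∧
      ¬ P k ∣ (a ^ 2 + b ^ 2).natAbs := by
    intro k
    have h1 := mem_filter.1 (e k).2
    have h2 := mem_filter.1 h1.1
    exact ⟨Finset.mem_Ioc.1 h2.1, h2.2, h1.2⟩
  have hroot : ∀ k : ι, ∃ t : ℕ, ∀ t' : ℕ, t' ≡ t [MOD P k] →
      (P k : ℤ) ∣ (A k + t' * b) ^ 2 + (C k + t' * a) ^ 2 := by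
    intro k
    have := Fact.mk (hPm k).2.1.1
    refine exists_root (hPm k).2.1.2 a b _ _ ?_
    rw [Int.natCast_dvd]
    exact (hPm k).2.2
  choose tk htk using hroot
  have hne : ∀ k ∈ (univ : Finset ι), P k ≠ 0 := fun k _ => (hPm k).2.1.1.ne_zero
  have hpw : Set.Pairwise (↑(univ : Finset ι)) (Function.onFun Nat.Coprime P) := by
    intro i _ j _ hij
    rw [Function.onFun, Nat.coprime_primes (hPm i).2.1.1 (hPm j).2.1.1]
    exact fun h => hij (e.injective (Subtype.ext h))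
  refine ⟨(Nat.chineseRemainderOfFinset tk P univ hne hpw).1, ?_, fun k =>
    ⟨P k, (hPm k).2.1.1, (hPm k).1.2, htk k _
      ((Nat.chineseRemainderOfFinset tk P univ hne hpw).2 k (mem_univ k))⟩⟩
  refine (Nat.chineseRemainderOfFinset_lt_prod tk P hne hpw).trans_le ?_
  exact (Finset.prod_le_pow_card _ _ (2 * B) fun k _ => (hPm k).1.2).trans (by simp)

theorem key (D w : ℕ) : ∃ L : ℕ, ∀ (α β : ℝ) (x0 : ℤ), |α| ≤ 1 →
    ∃ X : ℤ, x0 ≤ X ∧ X ≤ x0 + L ∧ ∀ z : GaussianInt, Prime z → X ≤ z.re → z.re ≤ X + D →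
      (w : ℝ) < |(z.im : ℝ) - α * z.re - β| := by
  set H := D + w + 2 with hH
  set K := Fintype.card (Fin (D + 1) × Fin (2 * H + 1)) with hK
  obtain ⟨B, hB5, hgood⟩ := exists_good_primes K
  set n := (2 * B) ^ K with hn
  have hn0 : 0 < n := pow_pos (by omega) K
  refine ⟨4 * B + 3 * (n * n) + D + 1, fun α β x0 hα => ?_⟩
  obtain ⟨x1, hx1, hx1', hfar⟩ : ∃ x1 : ℤ, x0 ≤ x1 ∧
      x1 ≤ x0 + (4 * B + n * n + D + 1 : ℕ) ∧
      ∀ x : ℤ, x1 ≤ x → x ≤ x1 + (n * n + D : ℕ) → (2 * B : ℤ) < |x| := by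
    by_cases h : x0 + (n * n + D : ℕ) < -(2 * B : ℤ)
    · refine ⟨x0, le_rfl, by omega, fun x _ h2 => ?_⟩
      rw [lt_abs]; right; omega
    · refine ⟨max x0 (2 * B + 1), le_max_left _ _, ?_, fun x h1 _ => ?_⟩
      · push_cast at h ⊢
        exact max_le (by nlinarith) (by linarith)
      · have := le_max_right x0 (2 * B + 1 : ℤ)
        rw [lt_abs]; left; omega
  obtain ⟨a, b, hb0, hbn, hab⟩ := Real.exists_int_int_abs_mul_sub_le α hn0
  have ha : |a| ≤ (n : ℤ) + 1 := by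
    have hbn' : (b : ℝ) ≤ (n : ℝ) := by exact_mod_cast hbn
    have hb0' : (0 : ℝ) < (b : ℝ) := by exact_mod_cast hb0
    have h1 : 1 / ((n : ℝ) + 1) ≤ 1 := by
      rw [div_le_one (by positivity)]
      linarith [(Nat.cast_nonneg n : (0 : ℝ) ≤ n)]
    have h2 : |(a : ℝ)| ≤ (n : ℝ) + 1 := by
      have h3 := abs_sub_abs_le_abs_sub (a : ℝ) ((b : ℝ) * α)
      rw [abs_sub_comm (a : ℝ) _] at h3
      have h4 : |(b : ℝ) * α| ≤ n := by
        rw [abs_mul, abs_of_pos hb0']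
        calc (b : ℝ) * |α| ≤ b * 1 := by gcongr
          _ ≤ n := by linarith
      linarith
    exact_mod_cast h2
  set Y0 := round (α * x1 + β) with hY0
  obtain ⟨t, htlt, ht⟩ := crt_point (B := B) a b
    (fun k : Fin (D + 1) × Fin (2 * H + 1) => x1 + ((k.1 : ℕ) : ℤ))
    (fun k => Y0 + ((k.2 : ℕ) : ℤ) - H) (hgood a b hb0 hbn ha)
  rw [← hK, ← hn] at htlt
  have htb : (t : ℤ) * b ≤ ((n * n : ℕ) : ℤ) := by
    push_cast
    exact mul_le_mul (by exact_mod_cast htlt.le) hbn hb0.le (by positivity)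
  have htb0 : (0 : ℤ) ≤ (t : ℤ) * b := by positivity
  refine ⟨x1 + t * b, by linarith, ?_, ?_⟩
  · push_cast at hx1' htb ⊢
    nlinarith
  intro z hz hzl hzr
  by_contra! hle
  have hdrift : |((Y0 + t * a : ℤ) : ℝ) - α * ((x1 + t * b : ℤ) : ℝ) - β| ≤ 2 := by
    have h1 := abs_sub_round (α * x1 + β)
    rw [← hY0] at h1
    have h2 : (t : ℝ) * |(b : ℝ) * α - a| ≤ 1 := by
      calc (t : ℝ) * |(b : ℝ) * α - a| ≤ (t : ℝ) * (1 / ((n : ℝ) + 1)) := by gcongr
        _ ≤ 1 := by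
          rw [mul_one_div, div_le_one (by positivity)]
          have : (t : ℝ) ≤ n := by exact_mod_cast htlt.le
          linarith
    have h3 : |(t : ℝ) * ((b : ℝ) * α - a)| ≤ 1 := by
      rwa [abs_mul, Nat.abs_cast]
    push_cast
    rw [abs_le] at h1 h3 ⊢
    constructor <;> linarith
  have hi : |((z.im - (Y0 + t * a) : ℤ) : ℝ)| ≤ (H : ℝ) := by
    have h4 : |α * ((z.re : ℝ) - ((x1 + t * b : ℤ) : ℝ))| ≤ (D : ℝ) := by
      rw [abs_mul]
      have hzl' : ((x1 + t * b : ℤ) : ℝ) ≤ z.re := by exact_mod_cast hzl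
      have hzr' : (z.re : ℝ) ≤ ((x1 + t * b : ℤ) : ℝ) + D := by exact_mod_cast hzr
      calc |α| * |(z.re : ℝ) - ((x1 + t * b : ℤ) : ℝ)| ≤ 1 * (D : ℝ) := by
            gcongr
            rw [abs_le]; constructor <;> linarith [(Nat.cast_nonneg D : (0 : ℝ) ≤ D)]
        _ = D := one_mul _
    rw [hH]
    push_cast at hdrift h4 ⊢
    rw [abs_le] at hdrift h4 hle ⊢
    constructor <;> linarith
  have hi' : |z.im - (Y0 + t * a)| ≤ (H : ℤ) := by exact_mod_cast hi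
  rw [abs_le] at hi'
  obtain ⟨i, hiv⟩ := Int.eq_ofNat_of_zero_le (sub_nonneg.2 hzl)
  obtain ⟨j, hjv⟩ :=
    Int.eq_ofNat_of_zero_le (show (0 : ℤ) ≤ z.im - (Y0 + t * a) + H by linarith)
  have hiD : i < D + 1 := by omega
  have hjH : j < 2 * H + 1 := by omega
  set k : Fin (D + 1) × Fin (2 * H + 1) := (⟨i, hiD⟩, ⟨j, hjH⟩) with hk
  obtain ⟨p, hp, hpB, hdvd⟩ := ht k
  have e1 : x1 + ((k.1 : ℕ) : ℤ) + t * b = z.re := by simp only [hk]; omega
  have e2 : Y0 + ((k.2 : ℕ) : ℤ) - H + t * a = z.im := by simp only [hk]; omega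
  simp only [e1, e2] at hdvd
  have hnorm : z.norm = z.re ^ 2 + z.im ^ 2 := by rw [Zsqrtd.norm_def]; ring
  have h5 := norm_le_sq_of_dvd hz hp (hnorm ▸ hdvd)
  have h6 : ((p : ℕ) : ℤ) ≤ 2 * B := by exact_mod_cast hpB
  have h7 := hfar z.re (by linarith) (by push_cast at htb ⊢; linarith)
  have h8 : (0 : ℤ) ≤ (p : ℤ) := by positivity
  nlinarith [sq_abs z.re, sq_nonneg z.im]

end Vale.Agent.P015
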