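import Mathlib
import Vale.Agent.P015.Strip

/-!
Consequences for discs and walks of Gaussian primes in strips of arbitrary direction.
-/

namespace Vale.Agent.P015

/-- Multiplication by i on Gaussian integers. -/
def rot (z : GaussianInt) : GaussianInt := ⟨-z.im, z.re⟩

lemma rot_prime {z : GaussianInt} (hz : Prime z) : Prime (rot z) := by
  have hu : IsUnit (⟨0, 1⟩ : GaussianInt) :=
    IsUnit.of_mul_eq_one (a := (⟨0, 1⟩ : GaussianInt)) ⟨0, -1⟩ (by decide)
  have h : rot z = (⟨0, 1⟩ : GaussianInt) * z := by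
    apply Zsqrtd.ext <;> simp [rot]
  rw [h]
  exact (associated_unit_mul_left z _ hu).symm.prime hz

lemma rot_toComplex (z : GaussianInt) :
    (rot z : ℂ) = Complex.I * (z : ℂ) := by
  rw [GaussianInt.toComplex_def₂, GaussianInt.toComplex_def₂]
  apply Complex.ext <;> simp [rot, -GaussianInt.intCast_re, -GaussianInt.intCast_im]

lemma abs_ge_half {u v : ℝ} (h : u ^ 2 + v ^ 2 = 1) (huv : |u| ≤ |v|) : 1 / 2 ≤ |v| := by
  have h1 := sq_abs u
  have h2 := sq_abs v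
  nlinarith [abs_nonneg u, abs_nonneg v]

lemma slope_le {u v : ℝ} (huv : |u| ≤ |v|) : |-u / v| ≤ 1 := by
  rw [abs_div, abs_neg]
  exact div_le_one_of_le₀ huv (abs_nonneg v)

lemma disc_steep (R : ℝ) : ∃ L : ℝ, 0 ≤ L ∧ ∀ u v c t0 : ℝ, u ^ 2 + v ^ 2 = 1 → |u| ≤ |v| →
    ∃ t ∈ Set.Icc t0 (t0 + L), ∀ z : GaussianInt, Prime z →
      R < ‖(z : ℂ) - (↑(c * u - t * v) + ↑(c * v + t * u) * Complex.I)‖ := by
  set m := ⌈R⌉₊ with hm
  obtain ⟨L, hL⟩ := key (2 * m) (2 * m)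
  refine ⟨2 * ((L : ℝ) + 2 * m + 3), by positivity, fun u v c t0 huv hle => ?_⟩
  have hv := abs_ge_half huv hle
  have hv0 : v ≠ 0 := by
    intro h
    rw [h, abs_zero] at hv
    linarith
  set T := 2 * ((L : ℝ) + 2 * m + 3) with hT
  have hlen : (L : ℝ) + 2 * m + 3 ≤ |v| * T := by
    rw [hT]
    nlinarith [(Nat.cast_nonneg L : (0 : ℝ) ≤ L), (Nat.cast_nonneg m : (0 : ℝ) ≤ m)]
  set lo := min (c * u - t0 * v) (c * u - (t0 + T) * v) with hlo
  obtain ⟨X, hX0, hX1, hX⟩ := hL (-u / v) (c / v) ⌈lo⌉ (slope_le hle)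
  have hX0' : lo ≤ (X : ℝ) := (Int.le_ceil lo).trans (by exact_mod_cast hX0)
  have hX1' : (X : ℝ) ≤ lo + 1 + L := by
    have h1 : (X : ℝ) ≤ (⌈lo⌉ : ℝ) + L := by exact_mod_cast hX1
    linarith [Int.ceil_lt_add_one lo]
  refine ⟨(c * u - ((X : ℝ) + m)) / v, ?_, fun z hz => ?_⟩
  · rcases lt_or_gt_of_ne hv0 with hneg | hpos
    · rw [abs_of_neg hneg] at hlen
      have hlo' : lo = c * u - t0 * v := by
        rw [hlo, min_eq_left]
        nlinarith [(by positivity : (0 : ℝ) ≤ L + 2 * m + 3)]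
      rw [Set.mem_Icc, le_div_iff_of_neg hneg, div_le_iff_of_neg hneg]
      constructor <;> linarith [(Nat.cast_nonneg m : (0 : ℝ) ≤ m)]
    · rw [abs_of_pos hpos] at hlen
      have hlo' : lo = c * u - (t0 + T) * v := by
        rw [hlo, min_eq_right]
        nlinarith [(by positivity : (0 : ℝ) ≤ L + 2 * m + 3)]
      rw [Set.mem_Icc, le_div_iff₀ hpos, div_le_iff₀ hpos]
      constructor <;> linarith [(Nat.cast_nonneg m : (0 : ℝ) ≤ m)]
  by_contra! hR
  have hRm : R ≤ (m : ℝ) := Nat.le_ceil R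
  have hre : c * u - (c * u - ((X : ℝ) + m)) / v * v = (X : ℝ) + m := by
    rw [div_mul_cancel₀ _ hv0]; ring
  have him : c * v + (c * u - ((X : ℝ) + m)) / v * u = -u / v * ((X : ℝ) + m) + c / v := by
    field_simp
    linear_combination c * huv
  rw [hre, him] at hR
  have h1 := (Complex.abs_re_le_norm _).trans hR
  have h2 := (Complex.abs_im_le_norm _).trans hR
  simp only [Complex.sub_re, Complex.sub_im, Complex.add_re, Complex.add_im, Complex.mul_re,
    Complex.mul_im, Complex.ofReal_re, Complex.ofReal_im, Complex.I_re, Complex.I_im, mul_zero,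
    mul_one, sub_zero, add_zero, zero_add, ← GaussianInt.intCast_re,
    ← GaussianInt.intCast_im] at h1 h2
  rw [abs_le] at h1 h2
  have hzl : X ≤ z.re := by
    have : (X : ℝ) ≤ (z.re : ℝ) := by linarith
    exact_mod_cast this
  have hzr : z.re ≤ X + (2 * m : ℕ) := by
    have : (z.re : ℝ) ≤ (X : ℝ) + 2 * (m : ℝ) := by linarith
    exact_mod_cast this
  have h3 := hX z hz hzl hzr
  have h4 : |-u / v * ((z.re : ℝ) - ((X : ℝ) + m))| ≤ (m : ℝ) := by
    rw [abs_mul]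
    calc |-u / v| * |(z.re : ℝ) - ((X : ℝ) + m)| ≤ 1 * (m : ℝ) := by
          gcongr
          · exact slope_le hle
          · rw [abs_le]; constructor <;> linarith
      _ = m := one_mul _
  rw [abs_le] at h4
  rw [lt_abs] at h3
  push_cast at h3
  rcases h3 with h3 | h3 <;> linarith

theorem disc (R : ℝ) : ∃ L : ℝ, ∀ u v c t0 : ℝ, u ^ 2 + v ^ 2 = 1 →
    ∃ t ∈ Set.Icc t0 (t0 + L), ∀ z : GaussianInt, Prime z →
      R < ‖(z : ℂ) - (↑(c * u - t * v) + ↑(c * v + t * u) * Complex.I)‖ := by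
  obtain ⟨L, -, hL⟩ := disc_steep R
  refine ⟨L, fun u v c t0 huv => ?_⟩
  rcases le_total |u| |v| with h | h
  · exact hL u v c t0 huv h
  · obtain ⟨t, ht, hz⟩ := hL (-v) u c t0 (by linarith [neg_sq v]) (by rwa [abs_neg])
    refine ⟨t, ht, fun z hp => ?_⟩
    have h1 := hz (rot z) (rot_prime hp)
    have h2 : (rot z : ℂ) - (↑(c * -v - t * u) + ↑(c * u + t * -v) * Complex.I)
        = Complex.I * ((z : ℂ) - (↑(c * u - t * v) + ↑(c * v + t * u) * Complex.I)) := by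
      rw [rot_toComplex]
      apply Complex.ext <;> simp <;> ring
    rwa [h2, norm_mul, Complex.norm_I, one_mul] at h1

lemma walk_steep (D w : ℝ) : ∃ L : ℝ, ∀ u v c : ℝ, u ^ 2 + v ^ 2 = 1 → |u| ≤ |v| →
    ∀ (n : ℕ) (f : ℕ → GaussianInt),
      (∀ i ≤ n, Prime (f i) ∧ |u * ((f i).re : ℝ) + v * ((f i).im : ℝ) - c| ≤ w) →
      (∀ i < n, ‖(f (i + 1) : ℂ) - (f i : ℂ)‖ ≤ D) →
      ‖(f n : ℂ) - (f 0 : ℂ)‖ ≤ L := by
  set d := ⌈D⌉₊ with hd
  set W := ⌈2 * w⌉₊ with hW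
  obtain ⟨L, hL⟩ := key d W
  refine ⟨2 * ((L : ℝ) + 1) + 2 * W, fun u v c huv hle n f hf hs => ?_⟩
  set α := -u / v with hα
  set β := c / v with hβ
  have hv := abs_ge_half huv hle
  have hv0 : v ≠ 0 := by
    intro h
    rw [h, abs_zero] at hv
    linarith
  have hstrip : ∀ i ≤ n, |((f i).im : ℝ) - α * (f i).re - β| ≤ (W : ℝ) := by
    intro i hi
    have h1 := (hf i hi).2
    have e : ((f i).im : ℝ) - α * (f i).re - β
        = (u * ((f i).re : ℝ) + v * ((f i).im : ℝ) - c) / v := by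
      rw [hα, hβ]; field_simp; ring
    rw [e, abs_div, div_le_iff₀ (by linarith)]
    have h2 : 2 * w ≤ (W : ℝ) := Nat.le_ceil _
    nlinarith [abs_nonneg (u * ((f i).re : ℝ) + v * ((f i).im : ℝ) - c)]
  have hstep : ∀ i < n, |(f (i + 1)).re - (f i).re| ≤ (d : ℤ) := by
    intro i hi
    have h1 := (Complex.abs_re_le_norm _).trans (hs i hi)
    rw [Complex.sub_re, ← GaussianInt.intCast_re, ← GaussianInt.intCast_re] at h1
    have h2 : |((f (i + 1)).re : ℝ) - ((f i).re : ℝ)| ≤ (d : ℝ) := h1.trans (Nat.le_ceil _)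
    exact_mod_cast h2
  have up : ∀ g : ℕ → GaussianInt,
      (∀ i ≤ n, Prime (g i) ∧ |((g i).im : ℝ) - α * (g i).re - β| ≤ (W : ℝ)) →
      (∀ i < n, |(g (i + 1)).re - (g i).re| ≤ (d : ℤ)) →
      (g n).re ≤ (g 0).re + ((L : ℤ) + 1) := by
    intro g hg hgs
    obtain ⟨X, hX0, hX1, hX⟩ := hL α β ((g 0).re + 1) (slope_le hle)
    have h : ∀ i ≤ n, (g i).re < X := by
      intro i
      induction i with
      | zero => intro _; linarith
      | succ i ih =>
        intro hi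
        by_contra! hge
        have h1 := ih (by omega)
        have h2 := (abs_le.1 (hgs i (by omega))).2
        have h3 := hX (g (i + 1)) (hg (i + 1) hi).1 hge (by linarith)
        linarith [(hg (i + 1) hi).2]
    linarith [h n le_rfl]
  have h1 := up f (fun i hi => ⟨(hf i hi).1, hstrip i hi⟩) hstep
  have h2 := up (fun i => f (n - i))
    (fun i _ => ⟨(hf (n - i) (by omega)).1, hstrip (n - i) (by omega)⟩)
    (fun i hi => by
      have h3 := hstep (n - (i + 1)) (by omega)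
      rw [show n - (i + 1) + 1 = n - i by omega] at h3
      rwa [abs_sub_comm])
  simp only [Nat.sub_self, Nat.sub_zero] at h2
  have h3 : |((f n).re : ℝ) - ((f 0).re : ℝ)| ≤ (L : ℝ) + 1 := by
    have : |(f n).re - (f 0).re| ≤ (L : ℤ) + 1 := abs_le.2 ⟨by linarith, by linarith⟩
    exact_mod_cast this
  have h4 : |α * (((f n).re : ℝ) - ((f 0).re : ℝ))| ≤ (L : ℝ) + 1 := by
    rw [abs_mul]
    calc |α| * |((f n).re : ℝ) - ((f 0).re : ℝ)| ≤ 1 * ((L : ℝ) + 1) := by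
          gcongr
          exact slope_le hle
      _ = _ := one_mul _
  have h5 : |((f n).im : ℝ) - ((f 0).im : ℝ)| ≤ (L : ℝ) + 1 + 2 * W := by
    have a1 := abs_le.1 (hstrip n le_rfl)
    have a2 := abs_le.1 (hstrip 0 (Nat.zero_le n))
    rw [abs_le] at h4 ⊢
    constructor <;> linarith
  refine (Complex.norm_le_abs_re_add_abs_im _).trans ?_
  rw [Complex.sub_re, Complex.sub_im, ← GaussianInt.intCast_re, ← GaussianInt.intCast_re,
    ← GaussianInt.intCast_im, ← GaussianInt.intCast_im]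
  linarith

theorem walk (D w : ℝ) : ∃ L : ℝ, ∀ u v c : ℝ, u ^ 2 + v ^ 2 = 1 →
    ∀ (n : ℕ) (f : ℕ → GaussianInt),
      (∀ i ≤ n, Prime (f i) ∧ |u * ((f i).re : ℝ) + v * ((f i).im : ℝ) - c| ≤ w) →
      (∀ i < n, ‖(f (i + 1) : ℂ) - (f i : ℂ)‖ ≤ D) →
      ‖(f n : ℂ) - (f 0 : ℂ)‖ ≤ L := by
  obtain ⟨L, hL⟩ := walk_steep D w
  refine ⟨L, fun u v c huv n f hf hs => ?_⟩
  rcases le_total |u| |v| with h | h
  · exact hL u v c huv h n f hf hs
  · have key' := hL (-v) u c (by linarith [neg_sq v]) (by rwa [abs_neg]) n (fun i => rot (f i))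
      (fun i hi => ⟨rot_prime (hf i hi).1, by
        have h1 := (hf i hi).2
        simp only [rot, Int.cast_neg]
        refine le_trans (le_of_eq ?_) h1
        congr 1
        ring⟩)
      (fun i hi => by
        rw [rot_toComplex, rot_toComplex, ← mul_sub, norm_mul, Complex.norm_I, one_mul]
        exact hs i hi)
    rwa [rot_toComplex, rot_toComplex, ← mul_sub, norm_mul, Complex.norm_I, one_mul] at key'

lemma exists_norm_gt {f : ℕ → GaussianInt} (hinj : Function.Injective f) (M : ℝ) :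
    ∃ i, M ≤ ‖(f i : ℂ)‖ := by
  by_contra! h
  set m : ℤ := ⌈M⌉ with hm
  refine (Set.infinite_range_of_injective hinj) ?_
  refine Set.Finite.subset (((Finset.Icc (-m) m ×ˢ Finset.Icc (-m) m).image
    (fun p : ℤ × ℤ => (⟨p.1, p.2⟩ : GaussianInt))).finite_toSet) ?_
  rintro _ ⟨i, rfl⟩
  have h1 := (Complex.abs_re_le_norm _).trans ((h i).le.trans (Int.le_ceil M))
  have h2 := (Complex.abs_im_le_norm _).trans ((h i).le.trans (Int.le_ceil M))
  rw [← GaussianInt.intCast_re, ← Int.cast_abs, Int.cast_le, abs_le] at h1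
  rw [← GaussianInt.intCast_im, ← Int.cast_abs, Int.cast_le, abs_le] at h2
  simp only [Finset.coe_image, Set.mem_image, Finset.mem_coe, Finset.mem_product, Finset.mem_Icc]
  exact ⟨((f i).re, (f i).im), ⟨h1, h2⟩, rfl⟩

theorem no_walk (D : ℝ) : ∃ φ : ℝ → ℝ, Filter.Tendsto φ Filter.atTop Filter.atTop ∧
    ∀ u v c : ℝ, u ^ 2 + v ^ 2 = 1 → ¬ ∃ f : ℕ → GaussianInt, Function.Injective f ∧
      ∀ i, Prime (f i) ∧ ‖(f (i + 1) : ℂ) - (f i : ℂ)‖ ≤ D ∧
        |u * ((f i).re : ℝ) + v * ((f i).im : ℝ) - c| ≤ φ ‖(f i : ℂ)‖ := by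
  classical
  choose L hL using fun k : ℕ => walk D (k : ℝ)
  set R : ℕ → ℝ := fun k => ∑ j ∈ Finset.range k, (|L j| + |D| + 1) with hR
  have hRs : ∀ k, R (k + 1) = R k + (|L k| + |D| + 1) := fun k => by
    simp only [hR, Finset.sum_range_succ]
  have hRk : ∀ k : ℕ, (k : ℝ) ≤ R k := by
    intro k
    induction k with
    | zero => simp [hR]
    | succ k ih => rw [hRs]; push_cast; linarith [abs_nonneg (L k), abs_nonneg D]
  have hmono : Monotone R := by
    refine monotone_nat_of_le_succ fun k => ?_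
    rw [hRs]; linarith [abs_nonneg (L k), abs_nonneg D]
  set lev : ℝ → ℕ := fun r => Nat.findGreatest (fun k => R k ≤ r) ⌊r⌋₊ with hlev
  refine ⟨fun r => (lev r : ℝ), ?_, ?_⟩
  · refine tendsto_natCast_atTop_atTop.comp ?_
    rw [Filter.tendsto_atTop]
    intro k
    rw [Filter.eventually_atTop]
    exact ⟨R k, fun r hr => Nat.le_findGreatest (Nat.le_floor ((hRk k).trans hr)) hr⟩
  rintro u v c huv ⟨f, hinj, hf⟩
  obtain ⟨k, hk⟩ := exists_nat_gt ‖(f 0 : ℂ)‖
  have hex : ∃ j, R (k + 1) ≤ ‖(f j : ℂ)‖ := exists_norm_gt hinj _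
  have hj := Nat.find_spec hex
  obtain ⟨j, hjdef⟩ : ∃ j, Nat.find hex = j + 1 := by
    refine Nat.exists_eq_succ_of_ne_zero fun h0 => ?_
    rw [h0] at hj
    linarith [hRk k, hRs k, abs_nonneg (L k), abs_nonneg D]
  rw [hjdef] at hj
  have hsmall : ∀ i ≤ j, (lev ‖(f i : ℂ)‖ : ℝ) ≤ (k : ℝ) := by
    intro i hi
    have hlt := not_le.1 (Nat.find_min hex (show i < Nat.find hex by omega))
    rw [Nat.cast_le]
    by_contra! hgt
    have h1 : R (lev ‖(f i : ℂ)‖) ≤ ‖(f i : ℂ)‖ :=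
      Nat.findGreatest_of_ne_zero rfl (show lev ‖(f i : ℂ)‖ ≠ 0 by omega)
    linarith [hmono (show k + 1 ≤ lev ‖(f i : ℂ)‖ by omega)]
  have hw := hL k u v c huv j f
    (fun i hi => ⟨(hf i).1, (hf i).2.2.trans (hsmall i hi)⟩) (fun i _ => (hf i).2.1)
  have h1 := norm_le_norm_add_norm_sub' (f (j + 1) : ℂ) (f j : ℂ)
  have h2 := norm_le_norm_add_norm_sub' (f j : ℂ) (f 0 : ℂ)
  linarith [(hf j).2.1, hRk k, hRs k, le_abs_self (L k), le_abs_self D]

end Vale.Agent.P015
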